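import Vale.Agent.P032.S5.H80.Ray

/-!
# P032: when is an exact letter crisp (wild frame `Irr U T`)

`R` on `S(z)`, only the colours `i, j` near `R`.

* `two_miss` : if two colours are pure in `N`, both seen from the connected open set `K`, then some point of `K`
  misses two colours of `N`,
* `cone_two`, `cone_pair` : if two colours accumulate at `R` from inside (outside) `S(z)`, then every open cone at `z`
  away from `R` (towards `R`) contains points near `z` which miss two colours of the palettes near `R`,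
* `wedge`, `wedge_set` : the colours carried by `S(z)` near `P` do not occur near `z` in the double cone perpendicular to
  `P - z`,
* `third` : if `i` and `j` both accumulate at `R` from inside (outside), then `T z` is not covered by `i, j` and
  the colours carried by `S(z)` near two antipodal points,
* `crisp` : so if `T z` is covered in this way, both sides of the arc are pure.
-/

open Set Filter Topology Metric

noncomputable section

namespace Vale.Agent.P032.H546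

open Vale.Agent.P032.Six

variable {k : ℕ} {U : Fin k → Set ℂ} {T : ℂ → Set (Fin k)}

/-- the points whose unit circle meets `O` -/
def Mt (O : Set ℂ) : Set ℂ := {p | ∃ w ∈ O, dist p w = 1}

theorem isOpen_Mt {O : Set ℂ} (hO : IsOpen O) : IsOpen (Mt O) := by
  rw [isOpen_iff_mem_nhds]
  rintro p ⟨w, hw, hpw⟩
  have hc : ContinuousAt (fun p' : ℂ => w + (p' - p)) p := by fun_prop
  have h1 : O ∈ 𝓝 ((fun p' : ℂ => w + (p' - p)) p) := by
    simpa using hO.mem_nhds hw
  filter_upwards [hc.preimage_mem_nhds h1] with p' hp'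
  refine ⟨w + (p' - p), hp', ?_⟩
  rw [← hpw, dist_eq_norm, dist_eq_norm]
  congr 1; ring

/-- the pure points of a colour -/
def Pu (T : ℂ → Set (Fin k)) (c : Fin k) : Set ℂ := {w | T w = {c}}

theorem isOpen_Pu (h : Irr U T) (c : Fin k) : IsOpen (Pu T c) := by
  rw [isOpen_iff_mem_nhds]
  intro w hw
  have hw : T w = {c} := hw
  filter_upwards [h.nhd w] with y hy
  obtain ⟨m, hm⟩ := h.ne y
  rw [hw] at hy
  show T y = {c}
  refine Subset.antisymm hy ?_
  have : m = c := hy hm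
  rw [← this]
  exact singleton_subset_iff.2 hm

theorem Pu_sub (h : Irr U T) {c : Fin k} {w : ℂ} (hw : w ∈ Pu T c) : w ∈ U c :=
  h.mem_of_single (show T w ⊆ {c} from (show T w = {c} from hw).le)

theorem miss (h : Irr U T) {N : Set ℂ} {c : Fin k} {p : ℂ} (hp : p ∈ Mt (N ∩ Pu T c)) : c ∉ Pal U p := by
  obtain ⟨w, hw, hpw⟩ := hp
  exact h.mx.notMem' (Pu_sub h hw.2) (by rw [dist_comm]; exact hpw)

/-- two pure colours of `N` seen from a connected open set: some point misses two colours -/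
theorem two_miss (h : Irr U T) {N K : Set ℂ} (hN : IsOpen N) (hK : IsOpen K) (hKc : IsPreconnected K)
    {L : Set (Fin k)} (hT : ∀ w ∈ N, T w ⊆ L) (hKN : ∀ p ∈ K, ∃ w ∈ N, dist p w = 1) {i j : Fin k}
    (hij : i ≠ j) (hi : (K ∩ Mt (N ∩ Pu T i)).Nonempty) (hj : (K ∩ Mt (N ∩ Pu T j)).Nonempty) :
    ∃ p ∈ K, ∃ c ∈ L, ∃ d ∈ L, c ≠ d ∧ c ∉ Pal U p ∧ d ∉ Pal U p := by
  have hL : ∀ c, ∀ p ∈ Mt (N ∩ Pu T c), c ∈ L := by
    rintro c p ⟨w, ⟨hw, hwc⟩, -⟩
    have hwc : T w = {c} := hwc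
    exact hT w hw (hwc ▸ mem_singleton c)
  have oA : IsOpen (Mt (N ∩ Pu T i)) := isOpen_Mt (hN.inter (isOpen_Pu h i))
  have oB : IsOpen (⋃ c ∈ {c | c ≠ i}, Mt (N ∩ Pu T c)) :=
    isOpen_biUnion fun c _ => isOpen_Mt (hN.inter (isOpen_Pu h c))
  by_cases hcov : K ⊆ Mt (N ∩ Pu T i) ∪ ⋃ c ∈ {c | c ≠ i}, Mt (N ∩ Pu T c)
  · obtain ⟨p, hpK, hpA, hpB⟩ := hKc _ _ oA oB hcov hi (by
      obtain ⟨p, hp, hp'⟩ := hj
      exact ⟨p, hp, mem_biUnion (show j ∈ {c | c ≠ i} from hij.symm) hp'⟩)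
    obtain ⟨c, hc, hpc⟩ := mem_iUnion₂.1 hpB
    exact ⟨p, hpK, i, hL i p hpA, c, hL c p hpc, (Ne.symm hc), miss h hpA, miss h hpc⟩
  · rw [not_subset] at hcov
    obtain ⟨p, hpK, hp⟩ := hcov
    have hno : ∀ w ∈ N, dist p w = 1 → ∀ c, T w ≠ {c} := by
      intro w hw hpw c hc
      apply hp
      have h1 : p ∈ Mt (N ∩ Pu T c) := ⟨w, ⟨hw, hc⟩, hpw⟩
      by_cases hci : c = i
      · left; rw [← hci]; exact h1
      · right; exact mem_biUnion (show c ∈ {c | c ≠ i} from hci) h1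
    -- a point with the smallest palette
    obtain ⟨w0, hw0, hpw0⟩ := hKN p hpK
    obtain ⟨w1, ⟨hw1, hpw1⟩, hmin⟩ : ∃ w1, (w1 ∈ N ∧ dist p w1 = 1) ∧ ∀ w, w ∈ N → dist p w = 1 →
        (T w1).ncard ≤ (T w).ncard := by
      have hne : {n | ∃ w, (w ∈ N ∧ dist p w = 1) ∧ (T w).ncard = n}.Nonempty := ⟨_, w0, ⟨hw0, hpw0⟩, rfl⟩
      obtain ⟨w1, hw1, e1⟩ := Nat.sInf_mem hne
      exact ⟨w1, hw1, fun w hw hpw => by rw [e1]; exact Nat.sInf_le ⟨w, ⟨hw, hpw⟩, rfl⟩⟩
    have hloc : ∀ᶠ q in 𝓝[sphere p 1] w1, T q = T w1 := by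
      filter_upwards [mem_nhdsWithin_of_mem_nhds (h.nhd w1), mem_nhdsWithin_of_mem_nhds (hN.mem_nhds hw1),
        self_mem_nhdsWithin] with q h1 h2 h3
      have h3 : dist q p = 1 := h3
      exact Set.eq_of_subset_of_ncard_le h1 (hmin q h2 (by rw [dist_comm]; exact h3)) (Set.toFinite _)
    obtain ⟨c, hc⟩ := h.ne w1
    obtain ⟨d, hd, hcd⟩ : ∃ d ∈ T w1, d ≠ c := by
      by_contra hcon
      push Not at hcon
      exact hno w1 hw1 hpw1 c (Subset.antisymm (fun m hm => hcon m hm) (singleton_subset_iff.2 hc))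
    -- another point of `K` on the circle about `w1`
    obtain ⟨p', hp'K, hp'1, hne1, hne2, -⟩ := exists_generic (z := w1) (p := p) (y := p) (s := K)
      hpw1 (mem_nhdsWithin_of_mem_nhds (hK.mem_nhds hpK))
    have key : ∀ m ∈ T w1, m ∉ Pal U p' := by
      intro m hm hmp
      rcases h.mx.partner_line (u := p) (p := w1) (v := p') (by rw [dist_comm]; exact hpw1)
        (hloc.mono fun q hq => h.sub q (hq ▸ hm)) (by rw [dist_comm]; exact hp'1) hmp with e | e
      · exact hne1 e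
      · exact hne2 e
    exact ⟨p', hp'K, c, hT w1 hw1 hc, d, hT w1 hw1 hd, hcd.symm, key c hc, key d hd⟩

/-! ### cones -/

/-- the open cone at `z` about the direction `v` -/
def Cone (z v : ℂ) (η ε : ℝ) : Set ℂ := {p | ∃ r ∈ Ioo 0 ε, ∃ v', dist v' v < η ∧ p = z + (r : ℝ) * v'}

theorem cone_pre (z v : ℂ) (η ε : ℝ) : IsPreconnected (Cone z v η ε) := by
  have h1 : IsPreconnected ((Ioo (0 : ℝ) ε) ×ˢ (ball v η)) :=
    isPreconnected_Ioo.prod (convex_ball v η).isPreconnected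
  have h2 : Cone z v η ε = (fun q : ℝ × ℂ => z + (q.1 : ℂ) * q.2) '' ((Ioo (0 : ℝ) ε) ×ˢ (ball v η)) := by
    ext p
    constructor
    · rintro ⟨r, hr, v', hv', rfl⟩
      exact ⟨(r, v'), ⟨hr, hv'⟩, rfl⟩
    · rintro ⟨⟨r, v'⟩, ⟨hr, hv'⟩, rfl⟩
      exact ⟨r, hr, v', hv', rfl⟩
  rw [h2]
  refine h1.image _ (Continuous.continuousOn ?_)
  fun_prop

theorem cone_open (z v : ℂ) (η ε : ℝ) : IsOpen (Cone z v η ε) := by
  rw [isOpen_iff_mem_nhds]
  rintro p ⟨r, hr, v', hv', rfl⟩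
  have hr0 : (r : ℂ) ≠ 0 := by exact_mod_cast hr.1.ne'
  have hc : ContinuousAt (fun q : ℂ => (q - z) / r) (z + r * v') := by fun_prop
  have e0 : (fun q : ℂ => (q - z) / r) (z + r * v') = v' := by
    show (z + r * v' - z) / r = v'
    rw [add_sub_cancel_left, mul_div_cancel_left₀ _ hr0]
  have h1 : ball v η ∈ 𝓝 ((fun q : ℂ => (q - z) / r) (z + r * v')) := by
    rw [e0]; exact isOpen_ball.mem_nhds hv'
  filter_upwards [hc.preimage_mem_nhds h1] with q hq
  refine ⟨r, hr, (q - z) / r, hq, ?_⟩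
  rw [mul_div_cancel₀ _ hr0]; ring

theorem cone_mono {z v : ℂ} {η ε η' ε' : ℝ} (h1 : η' ≤ η) (h2 : ε' ≤ ε) : Cone z v η' ε' ⊆ Cone z v η ε := by
  rintro p ⟨r, hr, v', hv', rfl⟩
  exact ⟨r, ⟨hr.1, lt_of_lt_of_le hr.2 h2⟩, v', lt_of_lt_of_le hv' h1, rfl⟩

/-- cones are near their vertex -/
theorem cone_near {z v : ℂ} {η : ℝ} {s : Set ℂ} (hs : s ∈ 𝓝 z) : ∃ ε > 0, Cone z v η ε ⊆ s := by
  obtain ⟨δ, hδ, hd⟩ := Metric.mem_nhds_iff.1 hs
  refine ⟨δ / (‖v‖ + |η| + 1), by positivity, ?_⟩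
  rintro p ⟨r, hr, v', hv', rfl⟩
  apply hd
  have h1 : ‖v'‖ < ‖v‖ + |η| + 1 := by
    have h2 : ‖v'‖ ≤ ‖v‖ + ‖v' - v‖ := by
      have := norm_add_le v (v' - v)
      rwa [add_sub_cancel] at this
    have h3 : ‖v' - v‖ < η := by rw [← dist_eq_norm]; exact hv'
    have h4 := le_abs_self η
    linarith
  have h5 : 0 < ‖v‖ + |η| + 1 := by positivity
  rw [mem_ball, dist_eq_norm, add_sub_cancel_left, norm_mul, Complex.norm_real, Real.norm_of_nonneg hr.1.le]
  have h6 : r * (‖v‖ + |η| + 1) < δ := by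
    have := hr.2
    rwa [lt_div_iff₀ h5] at this
  have h7 := norm_nonneg v'
  nlinarith [hr.1]

/-- a point inside `S(z)` near `R` is at distance one from a point of the ray `v` away from `R` -/
theorem hit {z v R : ℂ} {ε : ℝ} (hε : 0 < ε) (hR : dist R z = 1) (hv : ip v (R - z) ≠ 0) :
    ∀ᶠ w in 𝓝 R, ((dist w z < 1 ∧ ip v (R - z) < 0) ∨ (1 < dist w z ∧ 0 < ip v (R - z))) →
      ∃ r : ℝ, r ∈ Ioo 0 ε ∧ dist (z + r * v) w = 1 := by
  have hvv : 0 ≤ ip v v := by unfold ip; nlinarith [sq_nonneg v.re, sq_nonneg v.im]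
  obtain ⟨r0, hr0, hr0ε, hr1⟩ : ∃ r0 : ℝ, 0 < r0 ∧ r0 < ε ∧ r0 * ip v v < 2 * |ip v (R - z)| := by
    have ha := abs_pos.2 hv
    refine ⟨min (ε / 2) (|ip v (R - z)| / (ip v v + 1)), by positivity,
      lt_of_le_of_lt (min_le_left _ _) (by linarith), ?_⟩
    have h1 : min (ε / 2) (|ip v (R - z)| / (ip v v + 1)) ≤ |ip v (R - z)| / (ip v v + 1) := min_le_right _ _
    have h2 : |ip v (R - z)| / (ip v v + 1) * ip v v ≤ |ip v (R - z)| := by
      rw [div_mul_eq_mul_div, div_le_iff₀ (by linarith)]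
      nlinarith
    have h3 := mul_le_mul_of_nonneg_right h1 hvv
    linarith
  have hsq := sq_line z v R r0
  rw [dist_comm z R, hR] at hsq
  have hd0 := dist_nonneg (x := z + r0 * v) (y := R)
  have hcont : ∀ w, ContinuousOn (fun t : ℝ => dist (z + t * v) w) (uIcc 0 r0) := fun w => by fun_prop
  rcases lt_or_gt_of_ne hv with hneg | hpos
  · have h1 : 1 < dist (z + r0 * v) R := by
      have : 0 < r0 * -(ip v (R - z)) := mul_pos hr0 (by linarith)
      nlinarith
    have e1 : ∀ᶠ w in 𝓝 R, 1 < dist (z + r0 * v) w :=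
      (continuous_const.dist continuous_id).continuousAt.eventually (Ioi_mem_nhds h1)
    filter_upwards [e1] with w hw hcase
    rcases hcase with ⟨h2, -⟩ | ⟨-, h3⟩
    · have hmem : (1 : ℝ) ∈ uIcc (dist (z + (0 : ℝ) * v) w) (dist (z + r0 * v) w) := by
        simp only [Complex.ofReal_zero, zero_mul, add_zero]
        rw [dist_comm] at h2
        rw [uIcc_of_le (by linarith)]; exact ⟨h2.le, hw.le⟩
      obtain ⟨t, ht, ht1⟩ := intermediate_value_uIcc (hcont w) hmem
      rw [uIcc_of_le hr0.le] at ht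
      have ht0 : t ≠ 0 := by
        rintro rfl
        simp only [Complex.ofReal_zero, zero_mul, add_zero] at ht1
        rw [dist_comm] at h2; linarith
      exact ⟨t, ⟨lt_of_le_of_ne ht.1 (Ne.symm ht0), by linarith [ht.2]⟩, ht1⟩
    · exact absurd h3 (by linarith)
  · rw [abs_of_pos hpos] at hr1
    have h1 : dist (z + r0 * v) R < 1 := by
      have : 0 < r0 * (2 * ip v (R - z) - r0 * ip v v) := mul_pos hr0 (by linarith)
      nlinarith
    have e1 : ∀ᶠ w in 𝓝 R, dist (z + r0 * v) w < 1 :=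
      (continuous_const.dist continuous_id).continuousAt.eventually (Iio_mem_nhds h1)
    filter_upwards [e1] with w hw hcase
    rcases hcase with ⟨-, h3⟩ | ⟨h2, -⟩
    · exact absurd h3 (by linarith)
    · have hmem : (1 : ℝ) ∈ uIcc (dist (z + (0 : ℝ) * v) w) (dist (z + r0 * v) w) := by
        simp only [Complex.ofReal_zero, zero_mul, add_zero]
        rw [dist_comm] at h2
        rw [uIcc_of_ge (by linarith)]; exact ⟨hw.le, h2.le⟩
      obtain ⟨t, ht, ht1⟩ := intermediate_value_uIcc (hcont w) hmem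
      rw [uIcc_of_le hr0.le] at ht
      have ht0 : t ≠ 0 := by
        rintro rfl
        simp only [Complex.ofReal_zero, zero_mul, add_zero] at ht1
        rw [dist_comm] at h2; linarith
      exact ⟨t, ⟨lt_of_le_of_ne ht.1 (Ne.symm ht0), by linarith [ht.2]⟩, ht1⟩

/-- the side of `S(z)` seen from the direction `v` -/
def Sd (z R v w : ℂ) : Prop := (dist w z < 1 ∧ ip v (R - z) < 0) ∨ (1 < dist w z ∧ 0 < ip v (R - z))

/-- two colours accumulate at `R` on the side seen from `v`: the cone about `v` contains points near `z` which miss two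
colours of the palettes near `R` -/
theorem cone_two (h : Irr U T) {z v R : ℂ} {L : Set (Fin k)} (hR : dist R z = 1) (hT : ∀ᶠ w in 𝓝 R, T w ⊆ L)
    {i j : Fin k} (hij : i ≠ j) (hi : ∃ᶠ w in 𝓝 R, Sd z R v w ∧ T w = {i})
    (hj : ∃ᶠ w in 𝓝 R, Sd z R v w ∧ T w = {j}) {η ε : ℝ} (hη : 0 < η) (hε : 0 < ε) :
    ∃ p ∈ Cone z v η ε, ∃ c ∈ L, ∃ d ∈ L, c ≠ d ∧ c ∉ Pal U p ∧ d ∉ Pal U p := by
  have hv : ip v (R - z) ≠ 0 := by
    obtain ⟨w, hw, -⟩ := hi.exists
    rcases hw with ⟨-, h1⟩ | ⟨-, h1⟩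
    · exact h1.ne
    · exact h1.ne'
  obtain ⟨N, hN, hNo, hRN⟩ := _root_.mem_nhds_iff.1 hT
  have hpre : {p : ℂ | p + (R - z) ∈ N} ∈ 𝓝 z := by
    have hc : ContinuousAt (fun p : ℂ => p + (R - z)) z := by fun_prop
    exact hc.preimage_mem_nhds (by simpa using hNo.mem_nhds hRN)
  obtain ⟨ε1, hε1, hsub⟩ := cone_near (v := v) (η := η) hpre
  set ε2 := min ε ε1 with hε2
  have hε20 : 0 < ε2 := lt_min hε hε1
  have hK : ∀ p ∈ Cone z v η ε2, ∃ w ∈ N, dist p w = 1 := by
    intro p hp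
    refine ⟨p + (R - z), hsub (cone_mono le_rfl (min_le_right _ _) hp), ?_⟩
    rw [dist_eq_norm, show p - (p + (R - z)) = z - R by ring, ← dist_eq_norm, dist_comm]
    exact hR
  have hAm : ∀ c : Fin k, (∃ᶠ w in 𝓝 R, Sd z R v w ∧ T w = {c}) →
      (Cone z v η ε2 ∩ Mt (N ∩ Pu T c)).Nonempty := by
    intro c hc
    obtain ⟨w, ⟨hw1, hw2⟩, hw3, hw4⟩ := (hc.and_eventually ((hit hε20 hR hv).and (hNo.mem_nhds hRN))).exists
    obtain ⟨r, hr, hr1⟩ := hw3 hw1
    exact ⟨z + r * v, ⟨r, hr, v, by rw [dist_self]; exact hη, rfl⟩, w, ⟨hw4, hw2⟩, hr1⟩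
  obtain ⟨p, hp, hr⟩ := two_miss h hNo (cone_open z v η ε2) (cone_pre z v η ε2) (fun w hw => hN hw) hK hij
    (hAm i hi) (hAm j hj)
  exact ⟨p, cone_mono le_rfl (min_le_left _ _) hp, hr⟩

/-- the exact form -/
theorem cone_pair (h : Irr U T) {z v R : ℂ} {i j : Fin k} (hR : dist R z = 1) (hT : ∀ᶠ w in 𝓝 R, T w ⊆ {i, j})
    (hij : i ≠ j) (hi : ∃ᶠ w in 𝓝 R, Sd z R v w ∧ T w = {i})
    (hj : ∃ᶠ w in 𝓝 R, Sd z R v w ∧ T w = {j}) {η ε : ℝ} (hη : 0 < η) (hε : 0 < ε) :
    ∃ p ∈ Cone z v η ε, i ∉ Pal U p ∧ j ∉ Pal U p := by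
  obtain ⟨p, hp, c, hc, d, hd, hcd, h1, h2⟩ := cone_two h hR hT hij hi hj hη hε
  refine ⟨p, hp, ?_⟩
  rcases hc with rfl | hc <;> rcases hd with rfl | hd
  · exact absurd rfl hcd
  · rw [mem_singleton_iff] at hd; subst hd; exact ⟨h1, h2⟩
  · rw [mem_singleton_iff] at hc; subst hc; exact ⟨h2, h1⟩
  · rw [mem_singleton_iff] at hc hd; exact absurd (hc.trans hd.symm) hcd

/-! ### the double cone perpendicular to an arc -/

/-- colours carried by `S(z)` near `z + cis t` do not occur near `z` in the cone perpendicular to `cis t` -/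
theorem wedge (h : Irr U T) {z : ℂ} {t : ℝ} {c : Fin k} (hJ : ∀ᶠ q in 𝓝[sphere z 1] (z + cis t), c ∈ Pal U q)
    {σ : ℝ} (hσ : σ = 1 ∨ σ = -1) :
    ∃ η > 0, ∃ ε > 0, ∀ p ∈ Cone z (σ * (Complex.I * cis t)) η ε, c ∉ Pal U p := by
  obtain ⟨s, hs, hsub⟩ := mem_nhdsWithin_iff_exists_mem_nhds_inter.1 hJ
  have hc : ContinuousAt (fun a => z + cis a) t := (continuous_const.add continuous_cis).continuousAt
  obtain ⟨e, he, hball⟩ := Metric.mem_nhds_iff.1 (hc.preimage_mem_nhds hs)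
  have hJ' : ∀ a : ℝ, |a - t| < e → c ∈ Pal U (z + cis a) := fun a ha =>
    hsub ⟨hball (by rw [mem_ball, Real.dist_eq]; exact ha), dist_add_cis z a⟩
  set a := min (e / 2) 1 with ha
  have ha0 : 0 < a := by positivity
  have ha1 : a ≤ 1 := min_le_right _ _
  have hae : a < e := lt_of_le_of_lt (min_le_left _ _) (by linarith)
  have hsin : 0 < Real.sin a := Real.sin_pos_of_pos_of_lt_pi ha0 (by linarith [Real.pi_gt_three])
  set v : ℂ := σ * (Complex.I * cis t) with hv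
  have ipv : ∀ b : ℝ, ip (cis b) v = σ * Real.sin (b - t) := by
    intro b
    rw [hv]
    unfold ip
    simp only [Complex.mul_re, Complex.mul_im, Complex.ofReal_re, Complex.ofReal_im, Complex.I_re, Complex.I_im,
      cis_re, cis_im]
    rw [Real.sin_sub]; ring
  have i1 : ip (cis (t + σ * a)) v = Real.sin a := by
    rw [ipv]
    rcases hσ with rfl | rfl
    · rw [show t + 1 * a - t = a by ring]; ring
    · rw [show t + -1 * a - t = -a by ring, Real.sin_neg]; ring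
  have i2 : ip (cis (t - σ * a)) v = -Real.sin a := by
    rw [ipv]
    rcases hσ with rfl | rfl
    · rw [show t - 1 * a - t = -a by ring, Real.sin_neg]; ring
    · rw [show t - -1 * a - t = a by ring]; ring
  have cip : ∀ b : ℝ, Continuous fun v' : ℂ => ip (cis b) v' := fun b => by
    unfold ip; fun_prop
  have cvv : Continuous fun v' : ℂ => ip v' v' := by unfold ip; fun_prop
  have ev : ∀ᶠ v' in 𝓝 v, Real.sin a / 2 < ip (cis (t + σ * a)) v' ∧ ip (cis (t - σ * a)) v' < 0 ∧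
      ip v' v' < ip v v + 1 := by
    refine ((cip _).continuousAt.eventually (Ioi_mem_nhds ?_)).and
      (((cip _).continuousAt.eventually (Iio_mem_nhds ?_)).and (cvv.continuousAt.eventually (Iio_mem_nhds ?_)))
    · show Real.sin a / 2 < ip (cis (t + σ * a)) v
      rw [i1]; linarith
    · show ip (cis (t - σ * a)) v < 0
      rw [i2]; linarith
    · show ip v v < ip v v + 1
      linarith
  obtain ⟨η, hη, hηs⟩ := Metric.mem_nhds_iff.1 ev
  have hvv : 0 ≤ ip v v := by unfold ip; nlinarith [sq_nonneg v.re, sq_nonneg v.im]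
  refine ⟨η, hη, Real.sin a / (ip v v + 1), by positivity, ?_⟩
  rintro p ⟨r, hr, v', hv', rfl⟩
  obtain ⟨j1, j2, j3⟩ := hηs hv'
  have hvv' : 0 ≤ ip v' v' := by unfold ip; nlinarith [sq_nonneg v'.re, sq_nonneg v'.im]
  have hr2 : r * (ip v v + 1) < Real.sin a := by
    have := hr.2
    rwa [lt_div_iff₀ (by linarith)] at this
  have key : ∀ b : ℝ, dist (z + cis b) (z + r * v') ^ 2 = 1 - 2 * r * ip (cis b) v' + r ^ 2 * ip v' v' := by
    intro b
    rw [sq_dist]
    unfold ip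
    simp only [Complex.add_re, Complex.add_im, Complex.mul_re, Complex.mul_im, Complex.ofReal_re,
      Complex.ofReal_im, cis_re, cis_im]
    have h1 := Real.sin_sq_add_cos_sq b
    linear_combination h1
  have hd1 := dist_nonneg (x := z + cis (t + σ * a)) (y := z + r * v')
  have hd2 := dist_nonneg (x := z + cis (t - σ * a)) (y := z + r * v')
  refine h.mx.swept (z := z) (t1 := t + σ * a) (t2 := t - σ * a) ?_ ?_ ?_
  · intro b hb
    refine hJ' b ?_
    rw [abs_lt]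
    rcases hσ with rfl | rfl
    · rw [uIcc_of_ge (by linarith)] at hb
      exact ⟨by linarith [hb.1], by linarith [hb.2]⟩
    · rw [uIcc_of_le (by linarith)] at hb
      exact ⟨by linarith [hb.1], by linarith [hb.2]⟩
  · have e1 := key (t + σ * a)
    have e2 : r * ip v' v' < Real.sin a := by nlinarith [hr.1]
    have e3 : 0 < r * (2 * ip (cis (t + σ * a)) v' - r * ip v' v') := mul_pos hr.1 (by linarith)
    nlinarith
  · have e1 := key (t - σ * a)
    have e3 : 0 < r * (-ip (cis (t - σ * a)) v') := mul_pos hr.1 (by linarith)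
    have e4 : 0 ≤ r ^ 2 * ip v' v' := by positivity
    nlinarith

/-- finitely many colours at once -/
theorem wedge_set (h : Irr U T) {z : ℂ} {t : ℝ} {A : Set (Fin k)}
    (hJ : ∀ᶠ q in 𝓝[sphere z 1] (z + cis t), A ⊆ Pal U q) {σ : ℝ} (hσ : σ = 1 ∨ σ = -1) :
    ∃ η > 0, ∃ ε > 0, ∀ p ∈ Cone z (σ * (Complex.I * cis t)) η ε, ∀ c ∈ A, c ∉ Pal U p := by
  classical
  have h1 : ∀ c : Fin k, ∃ η > 0, ∃ ε > 0, ∀ p ∈ Cone z (σ * (Complex.I * cis t)) η ε, c ∈ A → c ∉ Pal U p := by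
    intro c
    by_cases hc : c ∈ A
    · obtain ⟨η, hη, ε, hε, hp⟩ := wedge h (hJ.mono fun q hq => hq hc) hσ
      exact ⟨η, hη, ε, hε, fun p hp' _ => hp p hp'⟩
    · exact ⟨1, one_pos, 1, one_pos, fun p _ h2 => absurd h2 hc⟩
  choose η hη ε hε hp using h1
  rcases isEmpty_or_nonempty (Fin k) with hE | hE
  · exact ⟨1, one_pos, 1, one_pos, fun p _ c => (hE.false c).elim⟩
  · obtain ⟨c1, hc1⟩ := Finite.exists_min η
    obtain ⟨c2, hc2⟩ := Finite.exists_min ε
    exact ⟨η c1, hη c1, ε c2, hε c2, fun p hp' c hc => hp c p (cone_mono (hc1 c) (hc2 c) hp') hc⟩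

/-! ### the criterion -/

theorem cis_pi (t : ℝ) : cis (t + Real.pi) = -cis t := by
  unfold cis
  push_cast
  rw [add_mul, Complex.exp_add, Complex.exp_pi_mul_I]
  ring

theorem ip_perp (t : ℝ) (w : ℂ) (σ : ℝ) : ip (σ * (Complex.I * cis t)) w = σ * cr (cis t) w := by
  unfold ip cr
  simp only [Complex.mul_re, Complex.mul_im, Complex.ofReal_re, Complex.ofReal_im, Complex.I_re, Complex.I_im]
  ring

theorem cr_self_ne {t : ℝ} {w : ℂ} (hw : ‖w‖ = 1) (h1 : cis t ≠ w) (h2 : cis t ≠ -w) : cr (cis t) w ≠ 0 := by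
  intro h0
  have e1 : (cis t).re ^ 2 + (cis t).im ^ 2 = 1 := ip_sq (norm_cis t)
  have e2 : w.re ^ 2 + w.im ^ 2 = 1 := ip_sq hw
  unfold cr at h0
  have e3 : ((cis t).re * w.re + (cis t).im * w.im) ^ 2 = 1 := by
    linear_combination (w.re ^ 2 + w.im ^ 2) * e1 + e2 - ((cis t).re * w.im - (cis t).im * w.re) * h0
  have e4 : (cis t).re * w.re + (cis t).im * w.im = 1 ∨ (cis t).re * w.re + (cis t).im * w.im = -1 :=
    by
      have : ((cis t).re * w.re + (cis t).im * w.im - 1) * ((cis t).re * w.re + (cis t).im * w.im + 1) = 0 := by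
        linear_combination e3
      rcases mul_eq_zero.1 this with h | h
      · left; linarith
      · right; linarith
  rcases e4 with e4 | e4
  · apply h1
    apply Complex.ext
    · linear_combination (-(cis t).re) * e2 + w.re * e4 + w.im * h0
    · linear_combination (-(cis t).im) * e2 + w.im * e4 - w.re * h0
  · apply h2
    apply Complex.ext
    · rw [Complex.neg_re]; linear_combination (-(cis t).re) * e2 + w.re * e4 + w.im * h0
    · rw [Complex.neg_im]; linear_combination (-(cis t).im) * e2 + w.im * e4 - w.re * h0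

/-- **Third colour.**  `i` and `j` both accumulate at `R` on the side `σ` (inside: `σ = -1`, outside: `σ = 1`), the
circle `S(z)` carries `A` near `P` and `B` near the antipode of `P`: then `T z` contains a colour outside
`{i, j} ∪ A ∪ B`. -/
theorem third (h : Irr U T) {z R P : ℂ} {i j : Fin k} {A B : Set (Fin k)} (hR : dist R z = 1)
    (hT : ∀ᶠ w in 𝓝 R, T w ⊆ {i, j}) (hij : i ≠ j) {inn : Prop}
    (hi : ∃ᶠ w in 𝓝 R, ((inn ∧ dist w z < 1) ∨ (¬ inn ∧ 1 < dist w z)) ∧ T w = {i})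
    (hj : ∃ᶠ w in 𝓝 R, ((inn ∧ dist w z < 1) ∨ (¬ inn ∧ 1 < dist w z)) ∧ T w = {j}) (hP : dist P z = 1)
    (hA : ∀ᶠ q in 𝓝[sphere z 1] P, A ⊆ Pal U q) (hB : ∀ᶠ q in 𝓝[sphere z 1] (2 * z - P), B ⊆ Pal U q) :
    ¬ T z ⊆ {i, j} ∪ (A ∪ B) := by
  intro hcov
  -- both arcs near `P`
  have hB' : ∀ᶠ q in 𝓝[sphere z 1] P, B ⊆ Pal U (2 * z - q) := by
    have hc : ContinuousAt (fun q : ℂ => 2 * z - q) P := by fun_prop
    have ht : Tendsto (fun q : ℂ => 2 * z - q) (𝓝[sphere z 1] P) (𝓝[sphere z 1] (2 * z - P)) := by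
      refine tendsto_nhdsWithin_of_tendsto_nhds_of_eventually_within _ hc.continuousWithinAt.tendsto ?_
      filter_upwards [self_mem_nhdsWithin] with q hq
      have hq : dist q z = 1 := hq
      show dist (2 * z - q) z = 1
      rw [dist_eq_norm, show 2 * z - q - z = z - q by ring, ← dist_eq_norm, dist_comm]; exact hq
    exact ht.eventually hB
  obtain ⟨q, -, hqz, hq1, hq2, hnear⟩ := exists_generic (y := R) hP (hA.and hB')
  obtain ⟨t, ht⟩ := exists_cis (u := q - z) (by rw [← dist_eq_norm]; exact hqz)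
  have hqt : q = z + cis t := by rw [← ht]; ring
  have hRz : ‖R - z‖ = 1 := by rw [← dist_eq_norm]; exact hR
  have hcr : cr (cis t) (R - z) ≠ 0 := by
    refine cr_self_ne hRz (fun e => hq1 ?_) (fun e => hq2 ?_)
    · rw [hqt, e]; ring
    · rw [hqt, e]; ring
  have hA1 : ∀ᶠ q' in 𝓝[sphere z 1] (z + cis t), A ⊆ Pal U q' := by
    rw [← hqt]; exact Filter.Eventually.mono hnear fun q' h' => h'.1
  have hB1 : ∀ᶠ q' in 𝓝[sphere z 1] (z + cis (t + Real.pi)), B ⊆ Pal U q' := by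
    have e0 : z + cis (t + Real.pi) = 2 * z - q := by rw [cis_pi, hqt]; ring
    rw [e0]
    have hc : ContinuousAt (fun q' : ℂ => 2 * z - q') (2 * z - q) := by fun_prop
    have ht' : Tendsto (fun q' : ℂ => 2 * z - q') (𝓝[sphere z 1] (2 * z - q)) (𝓝[sphere z 1] q) := by
      refine tendsto_nhdsWithin_of_tendsto_nhds_of_eventually_within _ ?_ ?_
      · have := hc.continuousWithinAt (s := sphere z 1)
        have h2 := this.tendsto
        simpa using h2
      · filter_upwards [self_mem_nhdsWithin] with q' hq'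
        have hq' : dist q' z = 1 := hq'
        show dist (2 * z - q') z = 1
        rw [dist_eq_norm, show 2 * z - q' - z = z - q' by ring, ← dist_eq_norm, dist_comm]; exact hq'
    filter_upwards [ht'.eventually hnear] with q' h'
    have := h'.2
    rwa [show 2 * z - (2 * z - q') = q' by ring] at this
  -- the right perpendicular direction
  obtain ⟨σ, hσ, hsg⟩ : ∃ σ : ℝ, (σ = 1 ∨ σ = -1) ∧ ∀ w : ℂ,
      (((inn ∧ dist w z < 1) ∨ (¬ inn ∧ 1 < dist w z)) → Sd z R (σ * (Complex.I * cis t)) w) := by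
    by_cases hin : inn
    · rcases lt_or_gt_of_ne hcr with hc | hc
      · refine ⟨1, Or.inl rfl, fun w hw => ?_⟩
        rcases hw with ⟨-, h1⟩ | ⟨h1, -⟩
        · left; refine ⟨h1, ?_⟩; rw [ip_perp]; linarith
        · exact absurd hin h1
      · refine ⟨-1, Or.inr rfl, fun w hw => ?_⟩
        rcases hw with ⟨-, h1⟩ | ⟨h1, -⟩
        · left; refine ⟨h1, ?_⟩; rw [ip_perp]; linarith
        · exact absurd hin h1
    · rcases lt_or_gt_of_ne hcr with hc | hc
      · refine ⟨-1, Or.inr rfl, fun w hw => ?_⟩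
        rcases hw with ⟨h1, -⟩ | ⟨-, h1⟩
        · exact absurd h1 hin
        · right; refine ⟨h1, ?_⟩; rw [ip_perp]; linarith
      · refine ⟨1, Or.inl rfl, fun w hw => ?_⟩
        rcases hw with ⟨h1, -⟩ | ⟨-, h1⟩
        · exact absurd h1 hin
        · right; refine ⟨h1, ?_⟩; rw [ip_perp]; linarith
  obtain ⟨η1, hη1, ε1, hε1, hw1⟩ := wedge_set h hA1 hσ
  have hσ' : -σ = 1 ∨ -σ = -1 := by
    rcases hσ with rfl | rfl
    · right; rfl
    · left; norm_num
  obtain ⟨η2, hη2, ε2, hε2, hw2⟩ := wedge_set h hB1 hσ'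
  have edir : ((-σ : ℝ) : ℂ) * (Complex.I * cis (t + Real.pi)) = σ * (Complex.I * cis t) := by
    rw [cis_pi]; push_cast; ring
  rw [edir] at hw2
  obtain ⟨ε3, hε3, hw3⟩ := cone_near (v := σ * (Complex.I * cis t)) (η := min η1 η2) (h.nhd z)
  obtain ⟨p, hp, hpi, hpj⟩ := cone_pair h (v := σ * (Complex.I * cis t)) hR hT hij
    (hi.mono fun w hw => ⟨hsg w hw.1, hw.2⟩) (hj.mono fun w hw => ⟨hsg w hw.1, hw.2⟩)
    (η := min η1 η2) (ε := min ε3 (min ε1 ε2)) (lt_min hη1 hη2) (lt_min hε3 (lt_min hε1 hε2))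
  have k1 := hw1 p (cone_mono (min_le_left _ _) ((min_le_right _ _).trans (min_le_left _ _)) hp)
  have k2 := hw2 p (cone_mono (min_le_right _ _) ((min_le_right _ _).trans (min_le_right _ _)) hp)
  have k3 : T p ⊆ T z := hw3 (cone_mono le_rfl (min_le_left _ _) hp)
  obtain ⟨m, hm⟩ := h.ne p
  have hmP := h.sub p hm
  rcases hcov (k3 hm) with (rfl | hmj) | (hmA | hmB)
  · exact hpi hmP
  · rw [mem_singleton_iff] at hmj; subst hmj; exact hpj hmP
  · exact k1 m hmA hmP
  · exact k2 m hmB hmP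

/-- **Crisp sides.**  `T z` is covered by `i, j` and the colours carried at two antipodal points: on each side of an
`ij`-arc of `S(z)` only one of the colours accumulates. -/
theorem crisp (h : Irr U T) {z R P : ℂ} {i j : Fin k} {A B : Set (Fin k)} (hR : dist R z = 1)
    (hT : ∀ᶠ w in 𝓝 R, T w ⊆ {i, j}) (hij : i ≠ j) (hP : dist P z = 1)
    (hA : ∀ᶠ q in 𝓝[sphere z 1] P, A ⊆ Pal U q) (hB : ∀ᶠ q in 𝓝[sphere z 1] (2 * z - P), B ⊆ Pal U q)
    (hcov : T z ⊆ {i, j} ∪ (A ∪ B)) (inn : Prop) :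
    (∀ᶠ w in 𝓝 R, ((inn ∧ dist w z < 1) ∨ (¬ inn ∧ 1 < dist w z)) → T w = {i}) ∨
      (∀ᶠ w in 𝓝 R, ((inn ∧ dist w z < 1) ∨ (¬ inn ∧ 1 < dist w z)) → T w = {j}) := by
  set S : Set ℂ := {w | (inn ∧ dist w z < 1) ∨ (¬ inn ∧ 1 < dist w z)} with hS
  have hSo : IsOpen S := by
    by_cases hin : inn
    · have : S = ball z 1 := by
        ext w; simp only [hS, mem_ofPred_eq, mem_ball, hin, true_and, not_true, false_and, or_false]
      rw [this]; exact isOpen_ball
    · have : S = {w | 1 < dist w z} := by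
        ext w; simp only [hS, mem_ofPred_eq, hin, false_and, not_false_iff, true_and, false_or]
      rw [this]; exact isOpen_lt continuous_const (by fun_prop)
  -- one colour is missing in pure form, hence missing
  have key : ∀ a b : Fin k, (∀ᶠ w in 𝓝 R, T w ⊆ {a, b}) → (¬ ∃ᶠ w in 𝓝 R, w ∈ S ∧ T w = {b}) →
      ∀ᶠ w in 𝓝 R, w ∈ S → T w = {a} := by
    intro a b hab hno
    rw [not_frequently] at hno
    obtain ⟨N, hN, hNo, hRN⟩ := _root_.mem_nhds_iff.1 (hno.and hab)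
    filter_upwards [hNo.mem_nhds hRN] with w hw hwS
    have hb : b ∉ T w := by
      intro hb
      have e1 : ∀ᶠ w' in 𝓝 w, w' ∈ N := hNo.mem_nhds hw
      have e2 : ∀ᶠ w' in 𝓝 w, w' ∈ S := hSo.mem_nhds hwS
      obtain ⟨w', hw', hw'N, hw'S⟩ := ((h.pure w b hb).and_eventually (e1.and e2)).exists
      exact (hN hw'N).1 ⟨hw'S, hw'⟩
    obtain ⟨m, hm⟩ := h.ne w
    have hsub : T w ⊆ {a} := by
      intro x hx
      rcases (hN hw).2 hx with rfl | hx'
      · rfl
      · rw [mem_singleton_iff] at hx'; subst hx'; exact absurd hx hb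
    refine Subset.antisymm hsub ?_
    have := hsub hm
    rw [mem_singleton_iff] at this
    rw [← this]; exact singleton_subset_iff.2 hm
  by_cases hj : ∃ᶠ w in 𝓝 R, w ∈ S ∧ T w = {j}
  · right
    refine key j i (hT.mono fun w hw => by rwa [pair_comm]) fun hi => ?_
    exact third h hR hT hij hi hj hP hA hB hcov
  · left
    exact key i j hT hj

end Vale.Agent.P032.H546
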